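import Vale.Agent.P218UC.Plane
import Vale.Agent.P218UA.Props2

/-! The self-shrinkers of three-space which split off a line. -/

open Set Filter Topology Real
open scoped RealInnerProductSpace ContDiff

namespace Vale.Agent.P218UC

open Vale.Agent.P218UA
open Vale.Agent.P218.H63 (lap)

lemma inner3 (a b : E3) : ⟪a, b⟫ = a 0 * b 0 + a 1 * b 1 + a 2 * b 2 := by
  simp [PiLp.inner_apply, Fin.sum_univ_three, mul_comm]

/-- the cross product with `e` -/
noncomputable def crs (e : E3) : E3 →L[ℝ] E3 := LinearMap.toContinuousLinearMap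
  { toFun := fun v => !₂[e 1 * v 2 - e 2 * v 1, e 2 * v 0 - e 0 * v 2, e 0 * v 1 - e 1 * v 0]
    map_add' := fun a b => by ext i; fin_cases i <;> simp <;> ring
    map_smul' := fun c a => by ext i; fin_cases i <;> simp <;> ring }

lemma crs_apply (e v : E3) : crs e v
    = !₂[e 1 * v 2 - e 2 * v 1, e 2 * v 0 - e 0 * v 2, e 0 * v 1 - e 1 * v 0] := rfl

lemma inner_crs_self (e v : E3) : ⟪v, crs e v⟫ = 0 := by simp [inner3, crs_apply]; ring
lemma inner_crs_left (e v : E3) : ⟪e, crs e v⟫ = 0 := by simp [inner3, crs_apply]; ring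
lemma inner_crs_crs (e v : E3) : ⟪crs e v, crs e v⟫ = ⟪e, e⟫ * ⟪v, v⟫ - ⟪e, v⟫ ^ 2 := by
  simp only [inner3]; simp [crs_apply]; ring
lemma crs_crs (e v : E3) : crs e (crs e v) = ⟪e, v⟫ • e - ⟪e, e⟫ • v := by
  simp only [inner3]; ext i; fin_cases i <;> simp [crs_apply] <;> ring

lemma exists_onb {a b c : E3} (ha : ⟪a, a⟫ = 1) (hb : ⟪b, b⟫ = 1) (hc : ⟪c, c⟫ = 1)
    (hab : ⟪a, b⟫ = 0) (hca : ⟪c, a⟫ = 0) (hcb : ⟪c, b⟫ = 0) :
    ∃ B : OrthonormalBasis (Fin 3) ℝ E3, B 0 = a ∧ B 1 = b ∧ B 2 = c := by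
  have hba : ⟪b, a⟫ = 0 := by rw [real_inner_comm, hab]
  have hac : ⟪a, c⟫ = 0 := by rw [real_inner_comm, hca]
  have hbc : ⟪b, c⟫ = 0 := by rw [real_inner_comm, hcb]
  have ho : Orthonormal ℝ ![a, b, c] := by
    rw [orthonormal_iff_ite]
    intro i j
    fin_cases i <;> fin_cases j <;> simp [-inner_self_eq_norm_sq_to_K, *]
  refine ⟨(basisOfOrthonormalOfCardEqFinrank ho (by simp)).toOrthonormalBasis (by simpa using ho),
    ?_, ?_, ?_⟩ <;> simp

lemma contDiff_grad {w : E3 → ℝ} (hw : ContDiff ℝ ∞ w) : ContDiff ℝ 1 (gradient w) :=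
  (InnerProductSpace.toDual ℝ E3).symm.contDiff.comp (hw.fderiv_right (by norm_cast))

/-- integral curves of vector fields tangent to the level sets -/
lemma exists_tangent_curve {w : E3 → ℝ} (hw : ContDiff ℝ ∞ w) {X : E3 → E3} (hX : ContDiff ℝ 1 X)
    (ho : ∀ x, ⟪gradient w x, X x⟫ = 0) (h1 : ∀ x, w x = 0 → ‖X x‖ = 1) {x : E3} (hx : w x = 0) :
    ∃ γ : ℝ → E3, γ 0 = x ∧ ∀ s, w (γ s) = 0 ∧ HasDerivAt γ (X (γ s)) s := by
  have hY : ContDiff ℝ 1 fun x => (2 / (1 + ‖X x‖ ^ 2)) • X x :=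
    (contDiff_const.div (contDiff_const.add (hX.norm_sq ℝ)) fun x => by positivity).smul hX
  obtain ⟨γ, h0, hγ⟩ := exists_curve hY (M := 1) (fun x => by
    rw [norm_smul, Real.norm_of_nonneg (by positivity), div_mul_eq_mul_div,
      div_le_one (by positivity)]
    nlinarith [sq_nonneg (‖X x‖ - 1)]) x
  have hc : ∀ s, w (γ s) = 0 := fun s => by
    rw [← hx, ← h0]
    refine const_of_deriv (f := fun s => w (γ s)) (fun t => ?_) s 0
    refine (((hw.differentiable (by simp) _).hasFDerivAt).comp_hasDerivAt t (hγ t)).congr_deriv ?_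
    rw [← inner_gradient_left, inner_smul_right, ho, mul_zero]
  refine ⟨γ, h0, fun s => ⟨hc s, (hγ s).congr_deriv ?_⟩⟩
  rw [h1 _ (hc s)]; norm_num

lemma grad_orth {w : E3 → ℝ} (hw : ContDiff ℝ ∞ w) {z v : E3} (h : ∀ t : ℝ, w (z + t • v) = 0) :
    ⟪v, gradient w z⟫ = 0 := by
  have h1 : HasDerivAt (fun t : ℝ => z + t • v) v 0 := by
    simpa using ((hasDerivAt_id (0 : ℝ)).smul_const v).const_add z
  have h2 := (hw.differentiable (by simp) _).hasFDerivAt.comp_hasDerivAt (0 : ℝ) h1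
  rw [show w ∘ (fun t : ℝ => z + t • v) = fun _ => 0 from funext h] at h2
  have h3 := h2.unique (hasDerivAt_const _ _)
  rwa [zero_smul, add_zero, ← inner_gradient_left, real_inner_comm] at h3

variable {W : E3 → ℝ} (hW : IsShr W) {e : E3} (he : ‖e‖ = 1)
  (ho : ∀ x, W x = 0 → ⟪e, gradient W x⟫ = 0)
include hW

lemma inner_nu {x : E3} (hx : W x = 0) : ⟪gradient W x, gradient W x⟫ = 1 := by
  rw [real_inner_self_eq_norm_sq, (hW.eik x hx).self_of_nhds, one_pow]

include he ho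

lemma invariant {x : E3} (hx : W x = 0) (t : ℝ) : W (x + t • e) = 0 := by
  have hg := contDiff_grad hW.smooth
  have hX : ∀ x, W x = 0 →
      ⟪gradient W x, gradient W x⟫ • e - ⟪gradient W x, e⟫ • gradient W x = e := fun x hx => by
    rw [inner_nu hW hx, real_inner_comm, ho x hx]; simp
  obtain ⟨γ, h0, hγ⟩ := exists_tangent_curve hW.smooth
    (X := fun x => ⟪gradient W x, gradient W x⟫ • e - ⟪gradient W x, e⟫ • gradient W x)
    (((hg.inner ℝ hg).smul contDiff_const).sub ((hg.inner ℝ contDiff_const).smul hg))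
    (fun x => by rw [inner_sub_right, inner_smul_right, inner_smul_right]; ring)
    (fun x hx => by rw [hX x hx, he]) hx
  have h3 := const_of_deriv (f := fun s => γ s - s • e) (fun s =>
    ((hγ s).2.sub ((hasDerivAt_id s).smul_const e)).congr_deriv
      (by rw [hX _ (hγ s).1]; simp)) t 0
  simp only [zero_smul, sub_zero, h0] at h3
  rw [← h3, sub_add_cancel]
  exact (hγ t).1

lemma onb {x : E3} (hx : W x = 0) : ∃ B : OrthonormalBasis (Fin 3) ℝ E3,
    B 0 = gradient W x ∧ B 1 = crs e (gradient W x) ∧ B 2 = e := by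
  have h1 : ⟪e, e⟫ = 1 := by rw [real_inner_self_eq_norm_sq, he, one_pow]
  exact exists_onb (inner_nu hW hx) (by rw [inner_crs_crs, h1, inner_nu hW hx, ho x hx]; ring) h1
    (inner_crs_self _ _) (ho x hx) (inner_crs_left _ _)

lemma decomp {x : E3} (hx : W x = 0) (v : E3) : v = ⟪gradient W x, v⟫ • gradient W x
    + ⟪crs e (gradient W x), v⟫ • crs e (gradient W x) + ⟪e, v⟫ • e := by
  obtain ⟨B, h0, h1, h2⟩ := onb hW he ho hx
  have := B.sum_repr' v
  rw [Fin.sum_univ_three, h0, h1, h2] at this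
  exact this.symm

lemma lap_eq {x : E3} (hx : W x = 0) : lap W x
    = ⟪crs e (gradient W x), fderiv ℝ (gradient W) x (crs e (gradient W x))⟫ := by
  obtain ⟨B, h0, h1, h2⟩ := onb hW he ho hx
  have hd := ((contDiff_grad hW.smooth).differentiable one_ne_zero x).hasFDerivAt
  have k1 : ∀ v, ⟪gradient W x, fderiv ℝ (gradient W) x v⟫ = 0 := fun v => by
    have h3 := (hd.inner ℝ hd).unique ((hasFDerivAt_const (1 : ℝ) x).congr_of_eventuallyEq (by
      filter_upwards [hW.eik x hx] with y hy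
      rw [real_inner_self_eq_norm_sq, hy, one_pow]))
    have h4 := congrArg (fun L => L v) h3
    simp only [ContinuousLinearMap.comp_apply, fderivInnerCLM_apply,
      ContinuousLinearMap.prod_apply, zero_apply] at h4
    rw [real_inner_comm (gradient W x)] at h4
    linarith
  have k2 : ⟪e, fderiv ℝ (gradient W) x e⟫ = 0 := by
    have h3 : HasDerivAt (fun t : ℝ => x + t • e) e 0 := by
      simpa using ((hasDerivAt_id (0 : ℝ)).smul_const e).const_add x
    have h4 := (hasDerivAt_const (0 : ℝ) e).inner ℝ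
      (HasFDerivAt.comp_hasDerivAt (0 : ℝ) (by simpa using hd) h3)
    rw [show (fun t : ℝ => ⟪e, (gradient W ∘ fun t : ℝ => x + t • e) t⟫) = fun _ => 0 from
      funext fun t => ho _ (invariant hW he ho hx t)] at h4
    simpa using h4.unique (hasDerivAt_const _ _)
  rw [lap, LinearMap.trace_eq_sum_inner _ B, Fin.sum_univ_three, h0, h1, h2]
  simp only [ContinuousLinearMap.coe_coe]
  rw [k1, k2]; ring

lemma exists_frame {x : E3} (hx : W x = 0) : ∃ γ : ℝ → E3, γ 0 = x ∧ (∀ s, W (γ s) = 0) ∧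
    Frame γ (fun s => gradient W (γ s)) fun s => crs e (gradient W (γ s)) := by
  have hg := contDiff_grad hW.smooth
  have h1 : ⟪e, e⟫ = 1 := by rw [real_inner_self_eq_norm_sq, he, one_pow]
  have hn : ∀ x, W x = 0 → ⟪crs e (gradient W x), crs e (gradient W x)⟫ = 1 := fun x hx => by
    rw [inner_crs_crs, h1, inner_nu hW hx, ho x hx]; ring
  obtain ⟨γ, h0, hγ⟩ := exists_tangent_curve hW.smooth (X := fun x => crs e (gradient W x))
    ((crs e).contDiff.comp hg) (fun x => inner_crs_self _ _) (fun x hx => by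
      rw [← sq_eq_sq₀ (norm_nonneg _) zero_le_one, ← real_inner_self_eq_norm_sq, hn x hx, one_pow])
    hx
  have dν : ∀ s, HasDerivAt (fun s => gradient W (γ s))
      ((⟪γ s, gradient W (γ s)⟫ / 2) • crs e (gradient W (γ s))) s := fun s => by
    have h2 := (hg.differentiable one_ne_zero _).hasFDerivAt.comp_hasDerivAt s (hγ s).2
    have h3 := (h2.inner ℝ h2).unique (by
      rw [show (fun t => ⟪(gradient W ∘ γ) t, (gradient W ∘ γ) t⟫) = fun _ => 1 from
        funext fun t => inner_nu hW (hγ t).1]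
      exact hasDerivAt_const _ _)
    have h4 := ((hasDerivAt_const s e).inner ℝ h2).unique (by
      rw [show (fun t => ⟪e, (gradient W ∘ γ) t⟫) = fun _ => 0 from
        funext fun t => ho _ (hγ t).1]
      exact hasDerivAt_const _ _)
    refine h2.congr_deriv ?_
    rw [Function.comp_apply, real_inner_comm (gradient W (γ s))] at h3
    rw [inner_zero_left, add_zero] at h4
    rw [decomp hW he ho (hγ s).1 (fderiv ℝ _ _ _), h4, ← lap_eq hW he ho (hγ s).1,
      hW.eqn _ (hγ s).1, show ⟪gradient W (γ s), _⟫ = 0 by linarith]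
    simp
  refine ⟨γ, h0, fun s => (hγ s).1, fun s => (hγ s).2, dν, fun s => ?_,
    fun s => inner_nu hW (hγ s).1, fun s => hn _ (hγ s).1, fun s => inner_crs_self _ _,
    fun s t h => by rw [h]⟩
  refine ((crs e).hasFDerivAt.comp_hasDerivAt s (dν s)).congr_deriv ?_
  rw [map_smul, crs_crs, ho _ (hγ s).1, h1]
  module

lemma plane_sub {x : E3} (hx : W x = 0) (h0 : ⟪x, gradient W x⟫ = 0) {z : E3}
    (hz : ⟪z, gradient W x⟫ = 0) : W z = 0 := by
  obtain ⟨γ, rfl, hγ, F⟩ := exists_frame hW he ho hx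
  have h1 := decomp hW he ho hx (z - γ 0)
  rw [inner_sub_right, real_inner_comm, hz, real_inner_comm, h0] at h1
  have h2 := invariant hW he ho (hγ ⟪crs e (gradient W (γ 0)), z - γ 0⟫) ⟪e, z - γ 0⟫
  rw [F.line h0] at h2
  rw [← h2]
  congr 1
  linear_combination (norm := module) h1

lemma circle_sub {x : E3} (hx : W x = 0) (h0 : ⟪x, gradient W x⟫ ≠ 0) :
    x ∈ cylS e ∧ ⟪x, gradient W x⟫ ^ 2 = 2 ∧ ∀ φ : ℝ, ∃ z, W z = 0 ∧ ⟪z, gradient W z⟫ ≠ 0 ∧
      z = ⟪e, x⟫ • e + ⟪x, gradient W x⟫ •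
        (cos φ • gradient W x + sin φ • crs e (gradient W x)) := by
  obtain ⟨γ, rfl, hγ, F⟩ := exists_frame hW he ho hx
  obtain ⟨h1, h2, h3⟩ := F.circle h0
  have h4 := decomp hW he ho hx (γ 0)
  rw [real_inner_comm, real_inner_comm (γ 0) (crs _ _), h1] at h4
  refine ⟨?_, h2, fun φ => ?_⟩
  · have : gT e (γ 0) = ⟪γ 0, gradient W (γ 0)⟫ • gradient W (γ 0) := by
      rw [gT]; linear_combination (norm := module) h4
    rw [cylS, mem_ofPred_eq, this, norm_smul, (hW.eik _ hx).self_of_nhds, mul_one, Real.norm_eq_abs,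
      sq_abs, h2]
  · obtain ⟨s, h5, h6⟩ := h3 φ
    refine ⟨γ s, hγ s, h5 ▸ h0, ?_⟩
    linear_combination (norm := module) h6 + h4

omit hW he ho in
lemma exists_angle {a b : ℝ} (h : a ^ 2 + b ^ 2 = 1) : ∃ φ, cos φ = a ∧ sin φ = b := by
  have h1 : ‖(⟨a, b⟩ : ℂ)‖ = 1 := by
    rw [Complex.norm_eq_sqrt_sq_add_sq, h, sqrt_one]
  have h2 : (⟨a, b⟩ : ℂ) ≠ 0 := by rintro h0; simp [h0] at h1
  exact ⟨Complex.arg ⟨a, b⟩, by rw [Complex.cos_arg h2, h1, div_one],
    by rw [Complex.sin_arg, h1, div_one]⟩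

omit hW he ho in
theorem al : ALStmt := by
  intro W hW e he ho
  by_cases hl : ∃ x, W x = 0 ∧ ⟪x, gradient W x⟫ = 0
  · obtain ⟨x₀, hx₀, h0⟩ := hl
    have hz : W 0 = 0 := plane_sub hW he ho hx₀ h0 (inner_zero_left _)
    have hP : ∀ z, ⟪z, gradient W 0⟫ = 0 → W z = 0 := fun z =>
      plane_sub hW he ho hz (inner_zero_left _)
    refine Or.inr (Or.inl ⟨gradient W 0, (hW.eik 0 hz).self_of_nhds,
      by rw [real_inner_comm, ho 0 hz], Set.ext fun x => ⟨fun hx => ?_, hP x⟩⟩)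
    by_cases h1 : ⟪x, gradient W x⟫ = 0
    · exact grad_orth hW.smooth fun t => plane_sub hW he ho hx h1
        (by rw [zero_add, inner_smul_left, h1, mul_zero])
    exfalso
    obtain ⟨-, -, h3⟩ := circle_sub hW he ho hx h1
    have hc : Continuous fun φ => cos φ * ⟪gradient W x, gradient W 0⟫
        + sin φ * ⟪crs e (gradient W x), gradient W 0⟫ := by fun_prop
    obtain ⟨φ, -, hφ⟩ := intermediate_value_uIcc (a := 0) (b := π) hc.continuousOn
      (show (0 : ℝ) ∈ _ by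
        simp only [cos_zero, sin_zero, cos_pi, sin_pi, mem_uIcc]
        rcases le_total 0 ⟪gradient W x, gradient W 0⟫ with h | h
        · right; constructor <;> linarith
        · left; constructor <;> linarith)
    obtain ⟨z, -, h5, h6⟩ := h3 φ
    have h7 : ⟪z, gradient W 0⟫ = 0 := by
      rw [h6]
      simp only [inner_add_left, real_inner_smul_left, ho 0 hz] at hφ ⊢
      rw [hφ]; ring
    exact h5 (grad_orth hW.smooth fun t => hP _
      (by rw [inner_add_left, inner_smul_left, h7, mul_zero, add_zero]))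
  push Not at hl
  rcases ({x | W x = 0} : Set E3).eq_empty_or_nonempty with h | ⟨x₀, hx₀⟩
  · exact Or.inl h
  refine Or.inr (Or.inr (Set.ext fun z => ⟨fun hz => (circle_sub hW he ho hz (hl z hz)).1,
    fun hz => ?_⟩))
  obtain ⟨-, h2, h3⟩ := circle_sub hW he ho hx₀ (hl _ hx₀)
  have h4 := decomp hW he ho hx₀ z
  obtain ⟨B, b0, b1, b2⟩ := onb hW he ho hx₀
  have h5 := B.sum_sq_norm_inner_right (gT e z)
  have h6 : ⟪e, e⟫ = 1 := by rw [real_inner_self_eq_norm_sq, he, one_pow]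
  rw [Fin.sum_univ_three, b0, b1, b2, show ‖gT e z‖ ^ 2 = 2 from hz] at h5
  simp only [gT, inner_sub_right, inner_smul_right, real_inner_comm e, ho _ hx₀, inner_crs_left,
    h6, Real.norm_eq_abs, sq_abs] at h5
  have h7 := hl _ hx₀
  obtain ⟨φ, c1, c2⟩ := exists_angle (a := ⟪gradient W x₀, z⟫ / ⟪x₀, gradient W x₀⟫)
    (b := ⟪crs e (gradient W x₀), z⟫ / ⟪x₀, gradient W x₀⟫) (by
      rw [div_pow, div_pow, h2]; linarith)
  obtain ⟨y, hy, -, h8⟩ := h3 φ
  have h9 := invariant hW he ho hy (⟪e, z⟫ - ⟪e, x₀⟫)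
  rw [h8, c1, c2, smul_add, smul_smul, smul_smul, mul_div_cancel₀ _ h7, mul_div_cancel₀ _ h7] at h9
  rw [mem_ofPred_eq, ← h9]
  congr 1
  linear_combination (norm := module) h4

end Vale.Agent.P218UC
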