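import Mathlib.Analysis.ODE.ExistUnique
import Mathlib.Analysis.Calculus.ContDiff.RCLike
import Mathlib.Analysis.Normed.Module.FiniteDimension

/-! Uniqueness and global existence of integral curves of `C¹` vector fields. -/

open Set Metric Filter Topology
open scoped NNReal

namespace Vale.Agent.P218UC

variable {E : Type*} [NormedAddCommGroup E] [NormedSpace ℝ E] [FiniteDimensional ℝ E]
variable {X : E → E}

lemma lip_ball (hX : ContDiff ℝ 1 X) (x : E) (R : ℝ) :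
    ∃ K, LipschitzOnWith K X (closedBall x R) :=
  hX.contDiffOn.exists_lipschitzOnWith one_ne_zero (convex_closedBall x R)
    (isCompact_closedBall x R)

/-- uniqueness on an open interval -/
lemma ode_unique_Ioo (hX : ContDiff ℝ 1 X) {f g : ℝ → E} {a b t₀ : ℝ} (ht : t₀ ∈ Ioo a b)
    (hf : ∀ t ∈ Ioo a b, HasDerivAt f (X (f t)) t) (hg : ∀ t ∈ Ioo a b, HasDerivAt g (X (g t)) t)
    (h : f t₀ = g t₀) : EqOn f g (Ioo a b) := by
  intro t htab
  obtain ⟨a', ha, ha'⟩ := exists_between (lt_min ht.1 htab.1)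
  obtain ⟨b', hb', hb⟩ := exists_between (max_lt ht.2 htab.2)
  have hsub : Icc a' b' ⊆ Ioo a b := fun s hs => ⟨ha.trans_le hs.1, hs.2.trans_lt hb⟩
  have cf : ContinuousOn f (Icc a' b') := fun s hs =>
    (hf s (hsub hs)).continuousAt.continuousWithinAt
  have cg : ContinuousOn g (Icc a' b') := fun s hs =>
    (hg s (hsub hs)).continuousAt.continuousWithinAt
  obtain ⟨R, hR⟩ := ((isCompact_Icc.image_of_continuousOn cf).union
    (isCompact_Icc.image_of_continuousOn cg)).isBounded.subset_closedBall (0 : E)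
  obtain ⟨K, hK⟩ := lip_ball hX 0 R
  refine ODE_solution_unique_of_mem_Ioo (v := fun _ => X) (s := fun _ => closedBall 0 R)
    (a := a') (b := b') (t₀ := t₀) (fun _ _ => hK)
    ⟨ha'.trans_le (min_le_left _ _), (le_max_left _ _).trans_lt hb'⟩
    (fun s hs => ⟨hf s (hsub (Ioo_subset_Icc_self hs)),
      hR (Or.inl (mem_image_of_mem _ (Ioo_subset_Icc_self hs)))⟩)
    (fun s hs => ⟨hg s (hsub (Ioo_subset_Icc_self hs)),
      hR (Or.inr (mem_image_of_mem _ (Ioo_subset_Icc_self hs)))⟩) h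
    ⟨ha'.trans_le (min_le_right _ _), (le_max_right _ _).trans_lt hb'⟩

/-- uniqueness on the line -/
lemma ode_unique (hX : ContDiff ℝ 1 X) {f g : ℝ → E} {t₀ : ℝ}
    (hf : ∀ t, HasDerivAt f (X (f t)) t) (hg : ∀ t, HasDerivAt g (X (g t)) t)
    (h : f t₀ = g t₀) : f = g := by
  funext t
  exact ode_unique_Ioo hX (a := min t t₀ - 1) (b := max t t₀ + 1)
    ⟨by linarith [min_le_right t t₀], by linarith [le_max_right t t₀]⟩ (fun s _ => hf s)
    (fun s _ => hg s) h ⟨by linarith [min_le_left t t₀], by linarith [le_max_left t t₀]⟩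

lemma exists_curve_Ioo (hX : ContDiff ℝ 1 X) {M : ℝ≥0} (hM : ∀ x, ‖X x‖ ≤ M) (x₀ : E) (T : ℝ≥0) :
    ∃ γ : ℝ → E, γ 0 = x₀ ∧ ∀ t ∈ Ioo (-(T : ℝ)) T, HasDerivAt γ (X (γ t)) t := by
  have := FiniteDimensional.complete ℝ E
  obtain ⟨K, hK⟩ := lip_ball hX x₀ (M * T : ℝ≥0)
  have h0 : (0 : ℝ) ∈ Icc (-(T : ℝ)) T := ⟨neg_nonpos.2 T.2, T.2⟩
  have := IsPicardLindelof.of_time_independent (f := X) (t₀ := ⟨0, h0⟩) (x₀ := x₀)
    (a := M * T) (r := 0) (L := M) (K := K) (fun x _ => hM x) hK (by simp)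
  obtain ⟨γ, h1, h2⟩ := this.exists_eq_forall_mem_Icc_hasDerivWithinAt₀
  exact ⟨γ, h1, fun t ht => (h2 t (Ioo_subset_Icc_self ht)).hasDerivAt (Icc_mem_nhds ht.1 ht.2)⟩

/-- a bounded `C¹` vector field has global integral curves -/
theorem exists_curve (hX : ContDiff ℝ 1 X) {M : ℝ} (hM : ∀ x, ‖X x‖ ≤ M) (x₀ : E) :
    ∃ γ : ℝ → E, γ 0 = x₀ ∧ ∀ t, HasDerivAt γ (X (γ t)) t := by
  have hM0 : 0 ≤ M := (norm_nonneg _).trans (hM x₀)
  choose γ h0 hγ using fun n : ℕ => exists_curve_Ioo hX (M := ⟨M, hM0⟩) hM x₀ (n + 1)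
  have hγ' : ∀ n : ℕ, ∀ t ∈ Ioo (-((n : ℝ) + 1)) (n + 1), HasDerivAt (γ n) (X (γ n t)) t := by
    intro n t ht
    exact hγ n t (by simpa using ht)
  have hag : ∀ m n : ℕ, m ≤ n → EqOn (γ m) (γ n) (Ioo (-((m : ℝ) + 1)) (m + 1)) := by
    intro m n hmn
    have hc : (m : ℝ) ≤ n := by exact_mod_cast hmn
    have hm : (0 : ℝ) ≤ m := m.cast_nonneg
    exact ode_unique_Ioo hX (t₀ := 0) ⟨by linarith, by linarith⟩ (hγ' m)
      (fun t ht => hγ' n t ⟨by linarith [ht.1], by linarith [ht.2]⟩) (by rw [h0, h0])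
  have hin : ∀ t : ℝ, t ∈ Ioo (-((⌈|t|⌉₊ : ℝ) + 1)) (⌈|t|⌉₊ + 1) := fun t => by
    have := Nat.le_ceil |t|
    exact ⟨by linarith [neg_abs_le t], by linarith [le_abs_self t]⟩
  have hloc : ∀ n : ℕ, ∀ t ∈ Ioo (-((n : ℝ) + 1)) (n + 1), γ ⌈|t|⌉₊ t = γ n t := by
    intro n t ht
    rcases le_total ⌈|t|⌉₊ n with h | h
    · exact hag _ _ h (hin t)
    · exact (hag _ _ h ht).symm
  refine ⟨fun t => γ ⌈|t|⌉₊ t, h0 _, fun t => ?_⟩
  refine (hγ' _ t (hin t)).congr_of_eventuallyEq ?_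
  filter_upwards [Ioo_mem_nhds (hin t).1 (hin t).2] with s hs using hloc _ s hs

end Vale.Agent.P218UC
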