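import Vale.Agent.P218UC.Sturm
import Mathlib.Analysis.InnerProductSpace.Calculus
import Mathlib.MeasureTheory.Integral.IntervalIntegral.FundThmCalculus

/-! Embedded self-shrinking curves are lines through the origin or circles. -/

open Set Filter Topology Real
open scoped RealInnerProductSpace

namespace Vale.Agent.P218UC

variable {V : Type*} [NormedAddCommGroup V] [InnerProductSpace ℝ V]

/-- a self-shrinking curve with its normal and its tangent -/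
structure Frame (γ ν τ : ℝ → V) : Prop where
  dγ : ∀ s, HasDerivAt γ (τ s) s
  dν : ∀ s, HasDerivAt ν ((⟪γ s, ν s⟫ / 2) • τ s) s
  dτ : ∀ s, HasDerivAt τ (-(⟪γ s, ν s⟫ / 2) • ν s) s
  nν : ∀ s, ⟪ν s, ν s⟫ = 1
  nτ : ∀ s, ⟪τ s, τ s⟫ = 1
  orth : ∀ s, ⟪ν s, τ s⟫ = 0
  inj : ∀ s t, γ s = γ t → τ s = τ t

lemma const_of_deriv {f : ℝ → V} (h : ∀ s, HasDerivAt f 0 s) (s t : ℝ) : f s = f t :=
  is_const_of_deriv_eq_zero (fun t => (h t).differentiableAt) (fun t => (h t).deriv) s t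

variable {γ ν τ : ℝ → V}

namespace Frame

variable (F : Frame γ ν τ)
include F

lemma neg : Frame γ (fun s => -ν s) τ where
  dγ := F.dγ
  dν s := (F.dν s).neg.congr_deriv (by rw [inner_neg_right, neg_div, neg_smul])
  dτ s := (F.dτ s).congr_deriv (by rw [inner_neg_right, neg_div, neg_neg, smul_neg, neg_smul])
  nν s := by rw [inner_neg_neg, F.nν]
  nτ := F.nτ
  orth s := by rw [inner_neg_left, F.orth, neg_zero]
  inj := F.inj

lemma exists_sol : ∃ θ, Sol (fun s => ⟪γ s, ν s⟫) (fun s => ⟪γ s, τ s⟫) θ := by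
  have dh : ∀ s, HasDerivAt (fun s => ⟪γ s, ν s⟫) (⟪γ s, ν s⟫ * ⟪γ s, τ s⟫ / 2) s := fun s => by
    refine ((F.dγ s).inner ℝ (F.dν s)).congr_deriv ?_
    rw [inner_smul_right, real_inner_comm (ν s) (τ s), F.orth]; ring
  have ch : Continuous fun s => ⟪γ s, ν s⟫ / 2 :=
    (continuous_iff_continuousAt.2 fun s => (dh s).continuousAt).div_const 2
  refine ⟨fun s => ∫ u in (0 : ℝ)..s, ⟪γ u, ν u⟫ / 2, dh, fun s => ?_,
    fun s => (ch.integral_hasStrictDerivAt 0 s).hasDerivAt⟩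
  refine ((F.dγ s).inner ℝ (F.dτ s)).congr_deriv ?_
  rw [inner_smul_right, F.nτ]; ring

variable {θ : ℝ → ℝ} (S : Sol (fun s => ⟪γ s, ν s⟫) (fun s => ⟪γ s, τ s⟫) θ)
include S

lemma rot (a s : ℝ) : ν s = cos (θ s - θ a) • ν a + sin (θ s - θ a) • τ a ∧
    τ s = -sin (θ s - θ a) • ν a + cos (θ s - θ a) • τ a := by
  have h1 := const_of_deriv (f := fun s => cos (θ s - θ a) • ν s - sin (θ s - θ a) • τ s)
    (fun t => by
      have h0 := (S.dθ t).sub_const (θ a)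
      refine ((h0.cos.smul (F.dν t)).sub (h0.sin.smul (F.dτ t))).congr_deriv ?_
      module) s a
  have h2 := const_of_deriv (f := fun s => sin (θ s - θ a) • ν s + cos (θ s - θ a) • τ s)
    (fun t => by
      have h0 := (S.dθ t).sub_const (θ a)
      refine ((h0.sin.smul (F.dν t)).add (h0.cos.smul (F.dτ t))).congr_deriv ?_
      module) s a
  simp only [sub_self, cos_zero, sin_zero, one_smul, zero_smul, sub_zero, zero_add] at h1 h2
  have h3 := sin_sq_add_cos_sq (θ s - θ a)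
  constructor
  · linear_combination (norm := module) (-h3) • ν s + cos (θ s - θ a) • h1 + sin (θ s - θ a) • h2
  · linear_combination (norm := module) (-h3) • τ s - sin (θ s - θ a) • h1 + cos (θ s - θ a) • h2

lemma pos (a s : ℝ) : γ s - ⟪γ s, ν s⟫ • ν s - ⟪γ s, τ s⟫ • τ s
    = γ a - ⟪γ a, ν a⟫ • ν a - ⟪γ a, τ a⟫ • τ a := by
  refine const_of_deriv (f := fun s => γ s - ⟪γ s, ν s⟫ • ν s - ⟪γ s, τ s⟫ • τ s) (fun t => ?_) s a
  refine (((F.dγ t).sub ((S.dh t).smul (F.dν t))).sub ((S.dp t).smul (F.dτ t))).congr_deriv ?_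
  module

lemma tan_zero (hpos : ∀ s, 0 < ⟪γ s, ν s⟫) (s : ℝ) : ⟪γ s, τ s⟫ = 0 := by
  refine S.circle hpos (fun a s ha h0 => ?_) s
  obtain ⟨e1, e2, e3⟩ := S.symm ha s
  have k1 := F.rot S a s
  have k2 := F.rot S a (2 * a - s)
  have k3 := F.pos S s (2 * a - s)
  rw [e3, cos_neg, sin_neg] at k2
  have k4 : γ (2 * a - s) = γ s := by
    rw [e1, e2] at k3
    set x := ⟪γ s, ν s⟫
    set y := ⟪γ s, τ s⟫
    rw [k1.1, k1.2, k2.1, k2.2] at k3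
    linear_combination (norm := module) k3 - (2 : ℝ) • h0 • τ a
  rw [F.inj _ _ k4, k4] at e2
  linarith

end Frame

namespace Frame

variable (F : Frame γ ν τ)
include F

/-- lines through the origin -/
theorem line (h0 : ⟪γ 0, ν 0⟫ = 0) (s : ℝ) : γ s = γ 0 + s • τ 0 := by
  obtain ⟨θ, S⟩ := F.exists_sol
  have h1 := S.zero_of_zero h0
  have h2 := const_of_deriv (f := τ) fun t => (F.dτ t).congr_deriv (by simp [h1 t])
  have h3 := const_of_deriv (f := fun s => γ s - s • τ 0) (fun t =>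
    ((F.dγ t).sub ((hasDerivAt_id t).smul_const (τ 0))).congr_deriv (by simp [h2 t 0])) s 0
  simp only [zero_smul, sub_zero] at h3
  rw [← h3]; abel

lemma circle_pos (h0 : 0 < ⟪γ 0, ν 0⟫) : ⟪γ 0, τ 0⟫ = 0 ∧ ⟪γ 0, ν 0⟫ ^ 2 = 2 ∧ ∀ φ : ℝ, ∃ s,
    ⟪γ s, ν s⟫ = ⟪γ 0, ν 0⟫ ∧
      γ s = γ 0 - ⟪γ 0, ν 0⟫ • ν 0 + ⟪γ 0, ν 0⟫ • (cos φ • ν 0 + sin φ • τ 0) := by
  obtain ⟨θ, S⟩ := F.exists_sol
  have hne : ∀ s ∈ (univ : Set ℝ), ⟪γ s, ν s⟫ ≠ 0 := fun s _ h => h0.ne' (S.zero_of_zero h 0)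
  obtain ⟨σ, hσ⟩ := exists_sign S.ch isPreconnected_univ hne
  have hpos : ∀ s, 0 < ⟪γ s, ν s⟫ := fun s =>
    pos_of_mul_pos_right (hσ s trivial) (pos_of_mul_pos_left (hσ 0 trivial) h0.le).le |> fun h => h
  have hp := F.tan_zero S hpos
  have hh : ∀ s t, ⟪γ s, ν s⟫ = ⟪γ t, ν t⟫ := const_of_deriv (f := fun s => ⟪γ s, ν s⟫)
    fun t => (S.dh t).congr_deriv (by simp [hp t])
  have h2 : 1 - ⟪γ 0, ν 0⟫ ^ 2 / 2 = 0 := (S.dp 0).unique (by
    rw [show (fun s => ⟪γ s, τ s⟫) = fun _ => (0 : ℝ) from funext hp]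
    exact hasDerivAt_const _ _)
  refine ⟨hp 0, by linarith, fun φ => ?_⟩
  set s := 2 * φ / ⟪γ 0, ν 0⟫ with hs
  have h3 := const_of_deriv (f := fun s => θ s - s * (⟪γ 0, ν 0⟫ / 2)) (fun t =>
    ((S.dθ t).sub ((hasDerivAt_id t).mul_const _)).congr_deriv (by simp [hh t 0])) s 0
  have h4 : θ s - θ 0 = φ := by
    have : s * (⟪γ 0, ν 0⟫ / 2) = φ := by rw [hs]; field_simp
    simp only [zero_mul, sub_zero] at h3
    linarith
  refine ⟨s, hh s 0, ?_⟩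
  have k1 := (F.rot S 0 s).1
  have k3 := F.pos S 0 s
  rw [hp, hp, hh s 0, k1, h4] at k3
  linear_combination (norm := module) k3

/-- circles -/
theorem circle (h0 : ⟪γ 0, ν 0⟫ ≠ 0) : ⟪γ 0, τ 0⟫ = 0 ∧ ⟪γ 0, ν 0⟫ ^ 2 = 2 ∧ ∀ φ : ℝ, ∃ s,
    ⟪γ s, ν s⟫ = ⟪γ 0, ν 0⟫ ∧
      γ s = γ 0 - ⟪γ 0, ν 0⟫ • ν 0 + ⟪γ 0, ν 0⟫ • (cos φ • ν 0 + sin φ • τ 0) := by
  rcases h0.lt_or_gt with h | h
  · obtain ⟨h1, h2, h3⟩ := F.neg.circle_pos (by rw [inner_neg_right]; linarith)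
    simp only [inner_neg_right, neg_sq, neg_inj] at h2 h3
    refine ⟨h1, h2, fun φ => ?_⟩
    obtain ⟨s, h4, h5⟩ := h3 (-φ)
    refine ⟨s, h4, ?_⟩
    rw [h5, cos_neg, sin_neg]
    module
  · exact F.circle_pos h

end Frame

end Vale.Agent.P218UC
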