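import Vale.Agent.P218UC.Ode
import Mathlib.Analysis.SpecialFunctions.Trigonometric.Deriv
import Mathlib.Analysis.SpecialFunctions.Log.Deriv
import Mathlib.Analysis.Calculus.Deriv.MeanValue

/-! The equation of self-shrinking curves for the support function: Sturm comparison. -/

open Set Filter Topology Real

namespace Vale.Agent.P218UC

/-- the vector field of the equation of shrinking curves -/
noncomputable def fld (z : ℝ × ℝ) : ℝ × ℝ := (z.1 * z.2 / 2, 1 - z.1 ^ 2 / 2)

lemma contDiff_fld : ContDiff ℝ 1 fld := by unfold fld; fun_prop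

/-- support function `h`, tangential part `p` of the position and angle `θ` of the normal -/
structure Sol (h p θ : ℝ → ℝ) : Prop where
  dh : ∀ s, HasDerivAt h (h s * p s / 2) s
  dp : ∀ s, HasDerivAt p (1 - h s ^ 2 / 2) s
  dθ : ∀ s, HasDerivAt θ (h s / 2) s

lemma exists_sign {p : ℝ → ℝ} (hp : Continuous p) {I : Set ℝ} (hI : IsPreconnected I)
    (hne : ∀ s ∈ I, p s ≠ 0) : ∃ σ : ℝ, ∀ s ∈ I, 0 < σ * p s := by
  rcases I.eq_empty_or_nonempty with rfl | ⟨m, hm⟩
  · exact ⟨0, by simp⟩
  refine ⟨p m, fun s hs => ?_⟩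
  by_contra hc
  have h1 : 0 < p m * p m := mul_self_pos.2 (hne m hm)
  obtain ⟨u, hu, h0⟩ := hI.intermediate_value hs hm (f := fun s => p m * p s)
    (by fun_prop) ⟨not_lt.1 hc, h1.le⟩
  exact mul_ne_zero (hne m hm) (hne u hu) h0

lemma deriv_nonpos_of_left {f : ℝ → ℝ} {a b d : ℝ} (hab : a < b) (hf : HasDerivAt f d b)
    (hb : f b = 0) (hpos : ∀ s ∈ Ioo a b, 0 < f s) : d ≤ 0 := by
  have h1 := (hasDerivAt_iff_tendsto_slope_left_right.1 hf).1
  refine le_of_tendsto h1 ?_
  filter_upwards [Ioo_mem_nhdsLT hab] with s hs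
  rw [slope_def_field, hb, sub_zero]
  exact div_nonpos_of_nonneg_of_nonpos (hpos s hs).le (by linarith [hs.2])

variable {h p θ : ℝ → ℝ}

namespace Sol

variable (S : Sol h p θ)
include S

lemma ch : Continuous h := continuous_iff_continuousAt.2 fun s => (S.dh s).continuousAt
lemma cp : Continuous p := continuous_iff_continuousAt.2 fun s => (S.dp s).continuousAt
lemma cθ : Continuous θ := continuous_iff_continuousAt.2 fun s => (S.dθ s).continuousAt

lemma pair (s : ℝ) : HasDerivAt (fun s => (h s, p s)) (fld (h s, p s)) s :=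
  (S.dh s).prodMk (S.dp s)

/-- lines -/
lemma zero_of_zero {a : ℝ} (ha : h a = 0) (s : ℝ) : h s = 0 := by
  have := ode_unique contDiff_fld (g := fun s => (0, p a + (s - a))) (t₀ := a) S.pair
    (fun t => by
      have h1 : HasDerivAt (fun s : ℝ => p a + (s - a)) 1 t :=
        ((hasDerivAt_id t).sub_const a).const_add _
      simpa [fld] using (hasDerivAt_const t (0 : ℝ)).prodMk h1) (by simp [ha])
  exact congrArg Prod.fst (congrFun this s)

/-- circles -/
lemma const_of {a : ℝ} (ha : p a = 0) (h2 : h a ^ 2 = 2) (s : ℝ) : p s = 0 := by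
  have := ode_unique contDiff_fld (g := fun _ => (h a, 0)) (t₀ := a) S.pair
    (fun t => (hasDerivAt_const t (h a, (0 : ℝ))).congr_deriv (by simp [fld, h2, Prod.ext_iff]))
    (by simp [ha])
  exact congrArg Prod.snd (congrFun this s)

/-- symmetry at a critical point of the distance to the origin -/
lemma symm {a : ℝ} (ha : p a = 0) (s : ℝ) :
    h (2 * a - s) = h s ∧ p (2 * a - s) = -p s ∧ θ (2 * a - s) - θ a = -(θ s - θ a) := by
  have hr : ∀ t, HasDerivAt (fun s : ℝ => 2 * a - s) (-1) t := fun t =>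
    (hasDerivAt_id t).const_sub _
  have e := ode_unique contDiff_fld (g := fun s => (h (2 * a - s), -p (2 * a - s))) (t₀ := a)
    S.pair (fun t => by
      have h1 := ((S.dh _).comp t (hr t)).prodMk ((S.dp _).comp t (hr t)).neg
      refine h1.congr_deriv ?_
      simp only [fld, Prod.mk.injEq]
      constructor <;> ring) (by simp [ha, two_mul])
  have e1 : ∀ s, h (2 * a - s) = h s := fun s => (congrArg Prod.fst (congrFun e s)).symm
  have e2 : p s = -p (2 * a - s) := congrArg Prod.snd (congrFun e s)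
  refine ⟨e1 s, by linarith, ?_⟩
  have h3 : ∀ t, HasDerivAt (fun s => θ (2 * a - s) + θ s) 0 t := fun t => by
    have h1 := ((S.dθ _).comp t (hr t)).add (S.dθ t)
    refine h1.congr_deriv ?_
    rw [e1]; ring
  have h4 := is_const_of_deriv_eq_zero (fun t => (h3 t).differentiableAt)
    (fun t => (h3 t).deriv) s a
  simp only [two_mul, add_sub_cancel_right] at h4 ⊢
  linarith

variable (hpos : ∀ s, 0 < h s)
include hpos

lemma mono : StrictMono θ :=
  strictMono_of_deriv_pos fun s => by rw [(S.dθ s).deriv]; linarith [hpos s]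

lemma lower : ∃ c, 0 < c ∧ ∀ s, c ≤ h s := by
  have h1 : ∀ t, HasDerivAt (fun s => (p s ^ 2 + h s ^ 2) / 2 - 2 * log (h s)) 0 t := fun t => by
    have := ((((S.dp t).pow 2).add ((S.dh t).pow 2)).div_const 2).sub
      (((S.dh t).log (hpos t).ne').const_mul 2)
    refine this.congr_deriv ?_
    have := (hpos t).ne'
    field_simp
    ring
  have h2 := is_const_of_deriv_eq_zero (fun t => (h1 t).differentiableAt) (fun t => (h1 t).deriv)
  refine ⟨exp (-((p 0 ^ 2 + h 0 ^ 2) / 2 - 2 * log (h 0)) / 2), exp_pos _, fun s => ?_⟩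
  rw [← le_log_iff_exp_le (hpos s), ← h2 s 0]
  nlinarith [sq_nonneg (p s), sq_nonneg (h s)]

/-- the angle between two critical points is less than `π` -/
lemma gap_lt {a b σ : ℝ} (hab : a < b) (hp : ∀ s ∈ Ioo a b, 0 < σ * p s) : θ b - θ a < π := by
  by_contra hc
  obtain ⟨c, hc1, hc2⟩ := intermediate_value_Icc hab.le S.cθ.continuousOn
    (show θ a + π ∈ Icc (θ a) (θ b) from ⟨by linarith [pi_pos], by linarith⟩)
  have hac : a < c := (S.mono hpos).lt_iff_lt.1 (by linarith [pi_pos])
  have hcl : ∀ s ∈ Icc a b, 0 ≤ σ * p s := by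
    have : closure (Ioo a b) ⊆ {s | 0 ≤ σ * p s} :=
      closure_minimal (fun s hs => (hp s hs).le)
        (isClosed_le continuous_const (continuous_const.mul S.cp))
    rwa [closure_Ioo hab.ne] at this
  have hW : ∀ t, HasDerivAt (fun s => σ * ((2 / h s - h s) * sin (θ s - θ a)
      - p s * cos (θ s - θ a))) (-(σ * p t / h t * sin (θ t - θ a))) t := fun t => by
    have h0 := (hpos t).ne'
    have h1 := (S.dθ t).sub_const (θ a)
    have := ((((((hasDerivAt_const t (2 : ℝ)).div (S.dh t) h0).sub (S.dh t)).mul h1.sin).sub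
      ((S.dp t).mul h1.cos)).const_mul σ)
    refine this.congr_deriv ?_
    simp only [Pi.div_apply, Pi.sub_apply]
    field_simp
    ring
  have hanti : StrictAntiOn (fun s => σ * ((2 / h s - h s) * sin (θ s - θ a)
      - p s * cos (θ s - θ a))) (Icc a c) := by
    refine strictAntiOn_of_deriv_neg (convex_Icc a c)
      (fun t _ => (hW t).continuousAt.continuousWithinAt) fun t ht => ?_
    rw [interior_Icc] at ht
    rw [(hW t).deriv, neg_lt_zero]
    refine mul_pos (div_pos (hp t ⟨ht.1, ht.2.trans_le hc1.2⟩) (hpos t))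
      (sin_pos_of_pos_of_lt_pi ?_ ?_)
    · linarith [S.mono hpos ht.1]
    · linarith [S.mono hpos ht.2]
  have := hanti (left_mem_Icc.2 hac.le) (right_mem_Icc.2 hac.le) hac
  simp only [hc2, add_sub_cancel_left, sin_pi, cos_pi, sub_self, sin_zero, cos_zero] at this
  linarith [hcl a (left_mem_Icc.2 hab.le), hcl c hc1]

/-- the angle between two critical points is more than `π / 2` -/
lemma lt_gap {a b σ : ℝ} (hab : a < b) (hp : ∀ s ∈ Ioo a b, 0 < σ * p s) (ha : p a = 0)
    (hb : p b = 0) : π / 2 < θ b - θ a := by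
  by_contra hc
  have hV : ∀ t, HasDerivAt (fun s => σ * ((2 * p s ^ 2 + 4 - 2 * h s ^ 2) * sin (2 * (θ s - θ a))
      - 4 * (h s * p s) * cos (2 * (θ s - θ a)))) (4 * (σ * p t) * sin (2 * (θ t - θ a))) t :=
    fun t => by
    have h1 := ((S.dθ t).sub_const (θ a)).const_mul 2
    have := ((((((((S.dp t).pow 2).const_mul 2).add_const 4).sub
      (((S.dh t).pow 2).const_mul 2)).mul h1.sin).sub
      ((((S.dh t).mul (S.dp t)).const_mul 4).mul h1.cos)).const_mul σ)
    refine this.congr_deriv ?_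
    simp only [Pi.pow_apply, Pi.sub_apply, Pi.mul_apply]
    ring
  have hmono : StrictMonoOn (fun s => σ * ((2 * p s ^ 2 + 4 - 2 * h s ^ 2) * sin (2 * (θ s - θ a))
      - 4 * (h s * p s) * cos (2 * (θ s - θ a)))) (Icc a b) := by
    refine strictMonoOn_of_deriv_pos (convex_Icc a b)
      (fun t _ => (hV t).continuousAt.continuousWithinAt) fun t ht => ?_
    rw [interior_Icc] at ht
    rw [(hV t).deriv]
    refine mul_pos (by linarith [hp t ht]) (sin_pos_of_pos_of_lt_pi ?_ ?_)
    · linarith [S.mono hpos ht.1]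
    · linarith [S.mono hpos ht.2]
  have h1 := hmono (left_mem_Icc.2 hab.le) (right_mem_Icc.2 hab.le) hab
  have h2 := deriv_nonpos_of_left hab ((S.dp b).const_mul σ) (by rw [hb, mul_zero]) hp
  have h3 : 0 ≤ sin (2 * (θ b - θ a)) :=
    sin_nonneg_of_nonneg_of_le_pi (by linarith [S.mono hpos hab]) (by linarith)
  simp only [ha, hb, sub_self, mul_zero, sin_zero, zero_mul] at h1
  nlinarith [mul_nonneg (neg_nonneg.2 h2) h3]

lemma exists_zero (a : ℝ) : ∃ s, a < s ∧ p s = 0 := by
  by_contra hc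
  push Not at hc
  obtain ⟨σ, hσ⟩ := exists_sign S.cp isPreconnected_Ioi (I := Ioi a) hc
  obtain ⟨c, hc0, hc1⟩ := S.lower hpos
  have hb : a < a + 2 * π / c := by have := pi_pos; have : 0 < 2 * π / c := by positivity
                                    linarith
  have h1 := S.gap_lt hpos hb fun s hs => hσ s hs.1
  obtain ⟨u, -, hu⟩ := exists_hasDerivAt_eq_slope θ (fun s => h s / 2) hb S.cθ.continuousOn
    fun s _ => S.dθ s
  rw [eq_div_iff (by linarith), add_sub_cancel_left] at hu
  have h2 : c / 2 * (2 * π / c) ≤ h u / 2 * (2 * π / c) := by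
    have := pi_pos
    gcongr
    exact hc1 u
  have h3 : c / 2 * (2 * π / c) = π := by field_simp
  linarith

lemma next {a : ℝ} (h2 : h a ^ 2 ≠ 2) :
    ∃ b, a < b ∧ p b = 0 ∧ h b ^ 2 ≠ 2 ∧ ∃ σ, ∀ s ∈ Ioo a b, 0 < σ * p s := by
  have h1 := (S.dp a).eventually_ne (c := 0) (by intro h0; apply h2; linarith)
  obtain ⟨u, hau, hu⟩ := mem_nhdsGT_iff_exists_Ioo_subset.1
    (h1.filter_mono (nhdsGT_le_nhdsNE a))
  have hau : a < u := hau
  set Z := {s | u ≤ s ∧ p s = 0} with hZ
  have hZc : IsClosed Z := isClosed_Ici.inter (isClosed_eq S.cp continuous_const)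
  have hZn : Z.Nonempty := by
    obtain ⟨s, hs, h0⟩ := S.exists_zero hpos u
    exact ⟨s, hs.le, h0⟩
  have hZb : BddBelow Z := ⟨u, fun s hs => hs.1⟩
  have hb := hZc.csInf_mem hZn hZb
  have hne : ∀ s ∈ Ioo a (sInf Z), p s ≠ 0 := fun s hs h0 => by
    rcases lt_or_ge s u with h3 | h3
    · exact hu ⟨hs.1, h3⟩ h0
    · exact absurd (csInf_le hZb ⟨h3, h0⟩) (not_le.2 hs.2)
  have hab : a < sInf Z := hau.trans_le hb.1
  refine ⟨sInf Z, hab, hb.2, fun h3 => ?_, exists_sign S.cp isPreconnected_Ioo hne⟩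
  obtain ⟨m, hm⟩ := exists_between hab
  exact hne m hm (S.const_of hb.2 h3 m)

/-- if the curve does not cross its axes of symmetry obliquely, it is a circle -/
theorem circle (hx : ∀ a s, p a = 0 → h s * sin (θ s - θ a) + p s * cos (θ s - θ a) = 0 →
    p s = 0) (s : ℝ) : p s = 0 := by
  obtain ⟨a, -, ha⟩ := S.exists_zero hpos 0
  by_cases h2 : h a ^ 2 = 2
  · exact S.const_of ha h2 s
  exfalso
  obtain ⟨b, hab, hb, hb2, σ, hσ⟩ := S.next hpos h2
  obtain ⟨c, hbc, hc, -, τ, hτ⟩ := S.next hpos hb2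
  have g1 := S.gap_lt hpos hab hσ
  have g2 := S.lt_gap hpos hab hσ ha hb
  have g3 := S.gap_lt hpos hbc hτ
  have g4 := S.lt_gap hpos hbc hτ hb hc
  have cf : Continuous fun s => h s * sin (θ s - θ a) + p s * cos (θ s - θ a) := by
    have := S.ch; have := S.cp; have := S.cθ
    fun_prop
  have f1 : 0 < h b * sin (θ b - θ a) :=
    mul_pos (hpos b) (sin_pos_of_pos_of_lt_pi (by linarith [pi_pos]) g1)
  have f2 : h c * sin (θ c - θ a) < 0 := by
    refine mul_neg_of_pos_of_neg (hpos c) ?_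
    rw [← sin_sub_two_pi]
    exact sin_neg_of_neg_of_neg_pi_lt (by linarith) (by linarith)
  obtain ⟨u, hu, h0⟩ := intermediate_value_Ioo' hbc.le cf.continuousOn
    (show (0 : ℝ) ∈ Ioo _ _ from ⟨by simpa [hc] using f2, by simpa [hb] using f1⟩)
  have := hτ u hu
  rw [hx a u ha h0, mul_zero] at this
  exact lt_irrefl _ this

end Sol

end Vale.Agent.P218UC
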